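import Mathlib
import Vale.Agent.P007.Defs
import Vale.Agent.P007.Obstruction
import Vale.Agent.P007.Fields
import Vale.Agent.P007.Orders

namespace Vale.Agent.Results.P007.IntermediateFieldPackets

open Vale.Agent.P007 MeasureTheory Filter Polynomial

theorem result :
    (∀ (n : ℕ) (P : ℤ[X]), P.Monic → Irreducible (P.map (algebraMap ℤ ℚ)) → 2 ≤ P.natDegree →
      AvoidsEquidistribution (packetsWithRoot n P)) ∧
    (∀ n : ℕ, 4 ≤ n → ¬ n.Prime →
      ∃ (K : Type) (_ : Field K) (_ : NumberField K) (_ : NumberField.IsTotallyReal K)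
        (σ : Fin n ≃ (K →+* ℝ)) (O : ℕ → Subring K),
        Module.finrank ℚ K = n ∧ (∀ i, IsOrder (O i)) ∧
        Tendsto (fun i => absDisc (O i)) atTop atTop ∧
        (∀ i, (packetSet (O i) σ).Nonempty) ∧
        ∃ f : LatticeSpace n → ℝ, Continuous f ∧ HasCompactSupport f ∧
          (∃ x, 0 < f x) ∧ (∀ i, ∀ x ∈ packetSet (O i) σ, f x = 0) ∧
          ∀ [MeasurableSpace (LatticeSpace n)] [BorelSpace (LatticeSpace n)]
            (μ : ℕ → Measure (LatticeSpace n)) (m : Measure (LatticeSpace n)),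
            (∀ i, IsProbabilityMeasure (μ i) ∧ μ i (packetSet (O i) σ)ᶜ = 0) →
            IsProbabilityMeasure m →
            SMulInvariantMeasure (Matrix.SpecialLinearGroup (Fin n) ℝ) (LatticeSpace n) m →
            ¬ Tendsto (fun i => ∫ x, f x ∂(μ i)) atTop (nhds (∫ x, f x ∂m))) := by
  refine ⟨fun n P hmon hirr hdeg => packetsWithRoot_avoids P hmon hirr hdeg, ?_⟩
  intro n hn hnp
  obtain ⟨a, ha, ha2, han⟩ := Nat.exists_dvd_of_not_prime2 (by omega : 2 ≤ n) hnp
  obtain ⟨K, _, _, _, θ, hK, hθ, hdeg⟩ := exists_field_with_subfield (by omega : 0 < n) ha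
  have hmin : minpoly ℚ θ = (minpoly ℤ θ).map (algebraMap ℤ ℚ) :=
    minpoly.isIntegrallyClosed_eq_field_fractions' ℚ hθ
  set P := minpoly ℤ θ
  have hmon : P.Monic := minpoly.monic hθ
  have hPdeg : P.natDegree = a := by rw [← hdeg, hmin, hmon.natDegree_map]
  have hirr : Irreducible (P.map (algebraMap ℤ ℚ)) :=
    hmin ▸ minpoly.irreducible (Algebra.IsIntegral.isIntegral θ)
  obtain ⟨f, hf, hfc, -, hfne, hf0, hfm⟩ :=
    packetsWithRoot_avoids (n := n) P hmon hirr (by omega)
  let A : Subalgebra ℤ K := Algebra.adjoin ℤ {θ}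
  have hA : ∀ x ∈ A, IsIntegral ℤ x := fun x hx =>
    (Algebra.adjoin_le (S := integralClosure ℤ K) (Set.singleton_subset_iff.2 hθ)) hx
  let E : Submodule ℚ K := Subalgebra.toSubmodule (Algebra.adjoin ℚ {θ})
  have hE : E < ⊤ := by
    refine lt_top_iff_ne_top.2 fun h => ?_
    have h1 : Module.finrank ℚ E = n := by rw [h, finrank_top, hK]
    have h2 : Module.finrank ℚ E = a := by
      have hi : IsIntegral ℚ θ := Algebra.IsIntegral.isIntegral θ
      rw [← hdeg, ← IntermediateField.adjoin.finrank hi]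
      change Module.finrank ℚ (Algebra.adjoin ℚ {θ}) = _
      rw [← IntermediateField.adjoin_simple_toSubalgebra_of_isAlgebraic hi.isAlgebraic]
      rfl
    omega
  obtain ⟨φ, hφ, hEφ⟩ := E.exists_le_ker_of_lt_top hE
  have hφA : ∀ x ∈ A, φ x = 0 := fun x hx =>
    LinearMap.mem_ker.1 (hEφ (Algebra.adjoin_le (S := (Algebra.adjoin ℚ {θ}).restrictScalars ℤ)
      (Set.singleton_subset_iff.2 (Algebra.self_mem_adjoin_singleton ℚ θ)) hx))
  have hcard : Nat.card (K →+* ℝ) = n := by
    let b : (K →+* ℝ) ≃ (K →+* ℂ) := Equiv.ofBijective (fun s => (algebraMap ℝ ℂ).comp s) <| by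
      refine ⟨fun s t h => RingHom.ext fun x => Complex.ofReal_injective
        (RingHom.congr_fun h x), fun s => ?_⟩
      exact ⟨NumberField.ComplexEmbedding.IsReal.embedding
        (NumberField.IsTotallyReal.complexEmbedding_isReal s), RingHom.ext fun x => by simp⟩
    rw [Nat.card_congr b, Nat.card_eq_fintype_card, NumberField.Embeddings.card, hK]
  haveI : Finite (K →+* ℝ) := Nat.finite_of_card_ne_zero (by omega)
  let σ : Fin n ≃ (K →+* ℝ) := ((Finite.equivFin _).trans (finCongr hcard)).symm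
  have hO : ∀ i, IsOrder (thickened A hA (i + 1)) := fun i =>
    ⟨thickened_integral A hA _, thickened_index_ne_zero A hA _ (Nat.succ_ne_zero i)⟩
  have hθO : ∀ i, θ ∈ thickened A hA (i + 1) := fun i =>
    ⟨θ, Algebra.self_mem_adjoin_singleton ℤ θ, 0, isIntegral_zero, by simp⟩
  have hsub : ∀ i, packetSet (thickened A hA (i + 1)) σ ⊆ packetsWithRoot n P := fun i x hx =>
    ⟨K, inferInstance, inferInstance, inferInstance, σ, _, hO i,
      ⟨θ, hθO i, minpoly.aeval ℤ θ⟩, hx⟩
  refine ⟨K, inferInstance, inferInstance, inferInstance, σ,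
    fun i => thickened A hA (i + 1), hK, hO, ?_, fun i => ?_, f, hf, hfc, hfne,
    fun i x hx => hf0 x (hsub i hx), ?_⟩
  · refine tendsto_atTop_mono (fun i => ?_) tendsto_id
    have h1 := le_thickened_index A hA φ hφ hφA (i + 1) (Nat.succ_ne_zero i)
    have h2 : 1 ≤ (NumberField.discr K).natAbs :=
      Int.natAbs_pos.2 (NumberField.discr_ne_zero K)
    calc id i ≤ orderIndex (thickened A hA (i + 1)) := by simp only [id]; omega
      _ ≤ orderIndex (thickened A hA (i + 1)) ^ 2 := Nat.le_self_pow two_ne_zero _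
      _ ≤ absDisc (thickened A hA (i + 1)) := Nat.le_mul_of_pos_left _ h2
  · exact packetSet_nonempty (by omega) hK _ (hO i) σ
  · intro _ _ μ m hμ hm hinv h
    obtain ⟨hzero, hpos⟩ := @hfm _ _
    have hz : ∀ i, ∫ x, f x ∂(μ i) = 0 := fun i =>
      hzero _ (hμ i).1 (measure_mono_null (Set.compl_subset_compl.2 (hsub i)) (hμ i).2)
    simp only [hz] at h
    exact (hpos m hm hinv).ne (tendsto_nhds_unique tendsto_const_nhds h)

end Vale.Agent.Results.P007.IntermediateFieldPackets
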